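import Crest.Agent.R153.Law

/-! Transfer between the Poisson model with replacement and the fixed-size 3-SAT model. -/

set_option autoImplicit false
open MeasureTheory Filter Crest.ProbabilityR.RandomSAT Crest.ProbabilityR.Diluted
namespace Crest.Agent.R153

/-! ### uniform averages -/

/-- uniform average -/
noncomputable def av {Ω : Type} [Fintype Ω] (f : Ω → ℝ) : ℝ :=
  (Fintype.card Ω : ℝ)⁻¹ * ∑ x, f x

section Av
variable {Ω Ω' : Type} [Fintype Ω] [Fintype Ω']

theorem av_mono {f g : Ω → ℝ} (h : ∀ x, f x ≤ g x) : av f ≤ av g :=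
  mul_le_mul_of_nonneg_left (Finset.sum_le_sum fun x _ => h x) (by positivity)

theorem av_const [Nonempty Ω] (c : ℝ) : av (fun _ : Ω => c) = c := by
  have : (Fintype.card Ω : ℝ) ≠ 0 := by exact_mod_cast Fintype.card_ne_zero
  simp [av, this]

theorem av_add (f g : Ω → ℝ) : av (fun x => f x + g x) = av f + av g := by
  simp [av, Finset.sum_add_distrib, mul_add]

theorem av_sub (f g : Ω → ℝ) : av (fun x => f x - g x) = av f - av g := by
  simp [av, Finset.sum_sub_distrib, mul_sub]

theorem av_const_mul (c : ℝ) (f : Ω → ℝ) : av (fun x => c * f x) = c * av f := by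
  simp only [av, ← Finset.mul_sum]; ring

theorem av_le [Nonempty Ω] {f : Ω → ℝ} {c : ℝ} (h : ∀ x, f x ≤ c) : av f ≤ c :=
  (av_mono h).trans (av_const c).le

theorem le_av [Nonempty Ω] {f : Ω → ℝ} {c : ℝ} (h : ∀ x, c ≤ f x) : c ≤ av f :=
  (av_const c).ge.trans (av_mono h)

theorem abs_av_sub_le [Nonempty Ω] {f g : Ω → ℝ} {c : ℝ} (h : ∀ x, |f x - g x| ≤ c) :
    |av f - av g| ≤ c := by
  rw [← av_sub, abs_le]
  exact ⟨le_av fun x => (abs_le.1 (h x)).1, av_le fun x => (abs_le.1 (h x)).2⟩

theorem av_equiv (e : Ω ≃ Ω') (f : Ω' → ℝ) : av (fun x => f (e x)) = av f := by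
  rw [av, av, Fintype.card_congr e, e.sum_comp]

theorem av_prod (f : Ω × Ω' → ℝ) : av f = av fun x => av fun y => f (x, y) := by
  simp only [av, Fintype.card_prod, Fintype.sum_prod_type, ← Finset.mul_sum]
  push_cast
  rw [mul_inv, mul_assoc]

theorem av_cons (m : ℕ) (f : (Fin (m + 1) → Ω) → ℝ) :
    av f = av fun x : Ω => av fun F : Fin m → Ω => f (Fin.cons x F) := by
  rw [← av_equiv (Fin.consEquiv fun _ => Ω), av_prod]
  rfl

theorem abs_av_sub_inj [Nonempty Ω] (e : Ω → Ω') (he : Function.Injective e) {δ : ℝ}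
    (hδ : (Fintype.card Ω' : ℝ) - Fintype.card Ω ≤ δ * Fintype.card Ω') {g : Ω' → ℝ}
    (hg : ∀ x y, |g x - g y| ≤ 1) : |av g - av (fun x => g (e x))| ≤ δ := by
  classical
  have : Nonempty Ω' := ⟨e (Classical.arbitrary Ω)⟩
  have h0 : (0 : ℝ) < Fintype.card Ω := by exact_mod_cast Fintype.card_pos
  have h0' : (0 : ℝ) < Fintype.card Ω' := by exact_mod_cast Fintype.card_pos
  set μ := av (fun x => g (e x)) with hμ
  have h1 : ∀ y, |g y - μ| ≤ 1 := fun y => by
    rw [hμ, ← av_const (Ω := Ω) (g y)]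
    exact abs_av_sub_le fun x => hg _ _
  have h2 : ∑ y ∈ Finset.univ.image e, (g y - μ) = 0 := by
    rw [Finset.sum_image fun x _ y _ h => he h, Finset.sum_sub_distrib, Finset.sum_const,
      Finset.card_univ, nsmul_eq_mul, hμ, av, ← mul_assoc, mul_inv_cancel₀ h0.ne', one_mul, sub_self]
  have h3 : av g - μ = (Fintype.card Ω' : ℝ)⁻¹ * ∑ y ∈ (Finset.univ.image e)ᶜ, (g y - μ) := by
    rw [← av_const (Ω := Ω') μ, ← av_sub, av, av_const,
      ← Finset.sum_add_sum_compl (Finset.univ.image e), h2, zero_add]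
  rw [h3, abs_mul, abs_of_pos (inv_pos.2 h0'), inv_mul_le_iff₀ h0', mul_comm]
  refine (Finset.abs_sum_le_sum_abs _ _).trans ((Finset.sum_le_sum fun y _ => h1 y).trans ?_)
  rw [Finset.sum_const, Finset.card_compl, Finset.card_image_of_injective _ he, nsmul_eq_mul,
    mul_one, Finset.card_univ, Nat.cast_sub (Fintype.card_le_of_injective e he)]
  exact hδ

theorem abs_av_sub_pi [Nonempty Ω] (e : Ω → Ω') (he : Function.Injective e) {δ : ℝ}
    (hδ : (Fintype.card Ω' : ℝ) - Fintype.card Ω ≤ δ * Fintype.card Ω') (m : ℕ)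
    {f : (Fin m → Ω') → ℝ} (hf : ∀ F j x, |f (Function.update F j x) - f F| ≤ 1) :
    |av f - av (fun F : Fin m → Ω => f fun j => e (F j))| ≤ m * δ := by
  have : Nonempty Ω' := ⟨e (Classical.arbitrary Ω)⟩
  induction m with
  | zero =>
    have h : ∀ F, f F = f Fin.elim0 := fun F => congrArg f (Subsingleton.elim _ _)
    rw [show f = fun _ => f Fin.elim0 from funext h]
    simp [av_const]
  | succ m ih =>
    rw [av_cons m f, av_cons m fun F : Fin (m + 1) → Ω => f fun j => e (F j)]
    have h1 := abs_av_sub_inj e he hδ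
      (g := fun x => av fun F : Fin m → Ω' => f (Fin.cons x F)) fun x y =>
        abs_av_sub_le fun F => by
          have := hf (Fin.cons y F) 0 x
          rwa [Fin.update_cons_zero] at this
    have h2 : |av (fun x : Ω => av fun F : Fin m → Ω' => f (Fin.cons (e x) F)) -
        av fun x : Ω => av fun F : Fin m → Ω => f fun j => e ((Fin.cons x F : Fin (m + 1) → Ω) j)| ≤
        m * δ := abs_av_sub_le fun x => by
      have h3 := ih (f := fun F => f (Fin.cons (e x) F)) fun F j y => by
        have := hf (Fin.cons (e x) F) j.succ y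
        rwa [← Fin.cons_update] at this
      have h4 : ∀ F : Fin m → Ω, (fun j => e ((Fin.cons x F : Fin (m + 1) → Ω) j)) =
          Fin.cons (e x) fun j => e (F j) := fun F => by
        ext j
        refine Fin.cases ?_ (fun j => ?_) j <;> simp
      simp only [h4]
      exact h3
    have := abs_sub_le (av fun x => av fun F : Fin m → Ω' => f (Fin.cons x F))
      (av (fun x : Ω => av fun F : Fin m → Ω' => f (Fin.cons (e x) F)))
      (av fun x : Ω => av fun F : Fin m → Ω => f fun j => e ((Fin.cons x F : Fin (m + 1) → Ω) j))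
    push_cast
    linarith
end Av

/-! ### ground state energies -/

/-- the least total cost -/
noncomputable def mv {C S : Type} {m : ℕ} (v : C → S → ℝ) (F : Fin m → C) : ℝ :=
  ⨅ σ, ∑ j, v (F j) σ

section Mv
variable {C S : Type} [Finite S] [Nonempty S] {m : ℕ} {v : C → S → ℝ}

omit [Nonempty S] in
theorem mv_le (v : C → S → ℝ) (F : Fin m → C) (σ : S) : mv v F ≤ ∑ j, v (F j) σ :=
  ciInf_le (Set.finite_range _).bddBelow σ

theorem exists_mv (v : C → S → ℝ) (F : Fin m → C) : ∃ σ, ∑ j, v (F j) σ = mv v F :=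
  exists_eq_ciInf_of_finite

theorem mv_le_add {m' : ℕ} {F : Fin m → C} {F' : Fin m' → C} {c : ℝ}
    (h : ∀ σ, ∑ j, v (F j) σ ≤ ∑ j, v (F' j) σ + c) : mv v F ≤ mv v F' + c := by
  obtain ⟨σ, hσ⟩ := exists_mv v F'
  rw [← hσ]
  exact (mv_le v F σ).trans (h σ)

theorem abs_mv_update (h0 : ∀ c σ, 0 ≤ v c σ) (h1 : ∀ c σ, v c σ ≤ 1) (F : Fin m → C) (j : Fin m)
    (x : C) : |mv v (Function.update F j x) - mv v F| ≤ 1 := by
  have key : ∀ (F : Fin m → C) x, mv v (Function.update F j x) ≤ mv v F + 1 := fun F x =>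
    mv_le_add fun σ => by
      rw [← Finset.add_sum_erase _ _ (Finset.mem_univ j),
        ← Finset.add_sum_erase _ _ (Finset.mem_univ j), Function.update_self,
        Finset.sum_congr rfl fun i hi => by
          rw [Function.update_of_ne (Finset.ne_of_mem_erase hi)]]
      linarith [h1 x σ, h0 (F j) σ]
  have h2 := key F x
  have h3 := key (Function.update F j x) (F j)
  rw [Function.update_idem, Function.update_eq_self] at h3
  rw [abs_le]
  constructor <;> linarith
end Mv

open Classical in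
/-- the violation indicator of a clause -/
noncomputable def vio {k n : ℕ} (c : Clause k n) (σ : Fin n → Bool) : ℝ :=
  if ¬ ClauseSat σ c then 1 else 0

theorem vio_nonneg {k n : ℕ} (c : Clause k n) (σ : Fin n → Bool) : 0 ≤ vio c σ := by
  unfold vio; split_ifs <;> simp

theorem vio_le_one {k n : ℕ} (c : Clause k n) (σ : Fin n → Bool) : vio c σ ≤ 1 := by
  unfold vio; split_ifs <;> simp

theorem nViol_eq {k n m : ℕ} (F : Fin m → Clause k n) (σ : Fin n → Bool) :
    (nViol F σ : ℝ) = ∑ j, vio (F j) σ := by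
  unfold nViol vio
  rw [Finset.card_filter]
  push_cast
  rfl

theorem minViol_eq {k n m : ℕ} (F : Fin m → Clause k n) : (minViol F : ℝ) = mv vio F := by
  apply le_antisymm
  · obtain ⟨σ, hσ⟩ := exists_mv vio F
    rw [← hσ, ← nViol_eq]
    exact_mod_cast minViol_le F σ
  · obtain ⟨σ, hσ⟩ := exists_minViol F
    rw [← hσ, nViol_eq]
    exact mv_le vio F σ

theorem xm_eq (k n m : ℕ) : xm k n m = av fun F : Fin m → Clause k n => mv vio F := by
  simp only [xm, av, minViol_eq]

theorem nonempty_clause {k n : ℕ} (hn : k ≤ n) : Nonempty (Clause k n) :=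
  ⟨(⟨Fin.castLE hn, Fin.castLE_injective hn⟩, fun _ => true)⟩

theorem xm_mono (k n : ℕ) (hn : k ≤ n) : Monotone (xm k n) := by
  have := nonempty_clause hn
  refine monotone_nat_of_le_succ fun m => ?_
  rw [xm_eq, xm_eq, av_cons]
  refine le_av fun c => av_mono fun F => ?_
  rw [← add_zero (mv vio (Fin.cons c F))]
  refine mv_le_add fun σ => ?_
  simp [Fin.sum_univ_succ, vio_nonneg]

theorem xm_succ_le (k n m : ℕ) (hn : k ≤ n) : xm k n (m + 1) ≤ xm k n m + 1 := by
  have := nonempty_clause hn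
  rw [xm_eq, xm_eq, av_cons, ← av_const (Ω := Fin m → Clause k n) 1, ← av_add]
  refine av_le fun c => av_mono fun F => mv_le_add fun σ => ?_
  simp only [Fin.sum_univ_succ, Fin.cons_zero, Fin.cons_succ]
  linarith [vio_le_one c σ]

theorem xm_add_le (k n m d : ℕ) (hn : k ≤ n) : xm k n (m + d) ≤ xm k n m + d := by
  induction d with
  | zero => simp
  | succ d ih =>
    have := xm_succ_le k n (m + d) hn
    rw [← add_assoc]
    push_cast
    linarith

theorem abs_xm_sub_le (k n m m' : ℕ) (hn : k ≤ n) : |xm k n m - xm k n m'| ≤ |(m : ℝ) - m'| := by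
  wlog h : m' ≤ m generalizing m m'
  · rw [abs_sub_comm, abs_sub_comm (m : ℝ)]
    exact this m' m (by omega)
  obtain ⟨d, rfl⟩ := Nat.exists_eq_add_of_le h
  have h1 := xm_add_le k n m' d hn
  have h2 := xm_mono k n hn h
  rw [abs_of_nonneg (by linarith)]
  push_cast
  rw [add_sub_cancel_left, Nat.abs_cast]
  linarith

theorem xm_le (k n m : ℕ) (hn : k ≤ n) : xm k n m ≤ m * (1 - satProb k n m) := by
  classical
  have := nonempty_clause hn
  have h1 : satProb k n m = av fun F : Fin m → Clause k n => if Satisfiable F then (1 : ℝ) else 0 := by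
    unfold satProb Crest.FinProb.uniformProb av
    rw [Finset.sum_boole, div_eq_inv_mul]
    congr!
  rw [xm_eq, h1, ← av_const (Ω := Fin m → Clause k n) 1, ← av_sub, av_const, ← av_const_mul]
  refine av_mono fun F => ?_
  split_ifs with h
  · obtain ⟨σ, hσ⟩ := h
    refine (mv_le vio F σ).trans (le_of_eq ?_)
    simp [vio, hσ]
  · refine (mv_le vio F fun _ => true).trans ?_
    calc _ ≤ ∑ _j : Fin m, (1 : ℝ) := Finset.sum_le_sum fun j _ => vio_le_one _ _
      _ = _ := by simp

/-! ### the model with replacement -/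

/-- violation indicator of an index tuple with a forbidden spin tuple -/
noncomputable def vio' {N : ℕ} (c : (Fin 3 → Bool) × (Fin 3 → Fin N)) (σ : Fin N → Bool) : ℝ :=
  if (fun ℓ => σ (c.2 ℓ)) = c.1 then 1 else 0

/-- the mean ground state energy with replacement -/
noncomputable def ym (N M : ℕ) : ℝ := av fun F : Fin M → (Fin 3 → Bool) × (Fin 3 → Fin N) => mv vio' F

theorem abs_ym_sub_xm (N M : ℕ) (hN : 3 ≤ N) : |ym N M - xm 3 N M| ≤ M * (3 / N) := by
  have := nonempty_clause hN
  let e : Clause 3 N → (Fin 3 → Bool) × (Fin 3 → Fin N) := fun c => (fun ℓ => !c.2 ℓ, c.1.1)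
  have he : Function.Injective e := by
    rintro ⟨⟨v, hv⟩, s⟩ ⟨⟨v', hv'⟩, s'⟩ h
    simp only [e, Prod.mk.injEq, funext_iff, Bool.not_inj_iff] at h
    obtain rfl : s = s' := funext h.1
    obtain rfl : v = v' := funext h.2
    rfl
  have hv : ∀ c σ, vio' (e c) σ = vio c σ := fun c σ => by
    unfold vio' vio ClauseSat
    congr 1
    simp only [e, funext_iff, not_exists, eq_iff_iff]
    refine forall_congr' fun ℓ => ?_
    cases σ (c.1.1 ℓ) <;> cases c.2 ℓ <;> simp
  have h := abs_av_sub_pi e he (δ := 3 / N) ?_ M (f := mv vio')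
    (abs_mv_update (fun c σ => by unfold vio'; split_ifs <;> simp)
      (fun c σ => by unfold vio'; split_ifs <;> simp))
  · rw [xm_eq]
    have h2 : ∀ F : Fin M → Clause 3 N, mv vio' (fun j => e (F j)) = mv vio F := fun F => by
      simp only [mv, hv]
    simp only [h2] at h
    exact h
  · obtain ⟨n, rfl⟩ := Nat.exists_eq_add_of_le' hN
    have h1 : Fintype.card {v : Fin 3 → Fin (n + 3) // Function.Injective v} =
        (n + 1) * ((n + 2) * (n + 3)) := by
      rw [Fintype.card_congr (Equiv.subtypeInjectiveEquivEmbedding _ _), Fintype.card_embedding_eq]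
      simp [Nat.descFactorial]
    simp only [Fintype.card_prod, h1, Fintype.card_fun, Fintype.card_fin, Fintype.card_bool]
    push_cast
    have : (0 : ℝ) < n + 3 := by positivity
    have h2 : (3 / (n + 3) : ℝ) * (8 * (n + 3) ^ 3) = 24 * (n + 3) ^ 2 := by
      field_simp; norm_num
    rw [h2]
    have : (0 : ℝ) ≤ n := by positivity
    nlinarith

theorem logPartition_bounds {β : ℝ} (hβ : 0 ≤ β) {N M : ℕ} (ss : Fin M → Fin 3 → Bool)
    (idx : Fin M → Fin 3 → Fin N) :
    -β * mv vio' (fun j => (ss j, idx j)) ≤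
        logPartition N (fun j => satInter β (ss j)) idx (fun _ => 0) ∧
      logPartition N (fun j => satInter β (ss j)) idx (fun _ => 0) ≤
        N * Real.log 2 - β * mv vio' (fun j => (ss j, idx j)) := by
  have h1 : logPartition N (fun j => satInter β (ss j)) idx (fun _ => 0) =
      Real.log (∑ σ : Fin N → Bool, Real.exp (-β * ∑ j, vio' (ss j, idx j) σ)) := by
    unfold logPartition
    congr 1
    refine Finset.sum_congr rfl fun σ _ => ?_
    simp only [zero_mul, Finset.sum_const_zero, add_zero, Finset.mul_sum, satInter, vio']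
    congr 1
    refine Finset.sum_congr rfl fun j _ => ?_
    split_ifs <;> simp
  have hpos : 0 < ∑ σ : Fin N → Bool, Real.exp (-β * ∑ j, vio' (ss j, idx j) σ) :=
    Finset.sum_pos (fun _ _ => Real.exp_pos _) Finset.univ_nonempty
  rw [h1]
  constructor
  · obtain ⟨σ, hσ⟩ := exists_mv vio' (fun j => (ss j, idx j))
    rw [Real.le_log_iff_exp_le hpos, ← hσ]
    exact Finset.single_le_sum (f := fun σ => Real.exp (-β * ∑ j, vio' (ss j, idx j) σ))
      (fun _ _ => (Real.exp_pos _).le) (Finset.mem_univ σ)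
  · rw [Real.log_le_iff_le_exp hpos, Real.exp_sub, ← Real.log_pow, Real.exp_log (by positivity)]
    calc _ ≤ ∑ _σ : Fin N → Bool, Real.exp (-(β * mv vio' (fun j => (ss j, idx j)))) := by
          refine Finset.sum_le_sum fun σ _ => Real.exp_le_exp.2 ?_
          have := mul_le_mul_of_nonneg_left (mv_le vio' (fun j => (ss j, idx j)) σ) hβ
          linarith
      _ = _ := by simp [Real.exp_neg, div_eq_mul_inv]

theorem pi_dirac_zero (N : ℕ) :
    (Measure.pi fun _ : Fin N => Measure.dirac (0 : ℝ)) = Measure.dirac fun _ => 0 := by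
  classical
  refine Measure.pi_eq fun s hs => ?_
  simp only [Measure.dirac_apply' _ (hs _), Measure.dirac_apply' _ (MeasurableSet.univ_pi hs),
    Set.indicator_apply, Set.mem_univ_pi, Pi.one_apply]
  rw [Finset.prod_ite_zero]
  simp

/-- the mean free energy with `M` clauses -/
noncomputable def fe (β : ℝ) (N M : ℕ) : ℝ :=
  av fun ss : Fin M → Fin 3 → Bool => av fun idx : Fin M → Fin 3 → Fin N =>
    logPartition N (fun j => satInter β (ss j)) idx (fun _ => 0)

theorem satPressure_eq (a β : ℝ) (N : ℕ) :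
    satPressure a β N = (1 / (N : ℝ)) * ∑' M : ℕ, poissonWeight (a * N) M * fe β N M := by
  unfold satPressure pressure
  simp only [pi_dirac_zero, integral_dirac, integral_pi_satLaw]
  congr 1
  refine tsum_congr fun M => ?_
  congr 1
  simp [fe, av]

theorem fe_bounds {β : ℝ} (hβ : 0 ≤ β) {N : ℕ} (hN : 3 ≤ N) (M : ℕ) :
    -β * ym N M ≤ fe β N M ∧ fe β N M ≤ N * Real.log 2 - β * ym N M := by
  have : Nonempty (Fin N) := ⟨⟨0, by omega⟩⟩
  have h : ym N M = av fun ss : Fin M → Fin 3 → Bool => av fun idx : Fin M → Fin 3 → Fin N =>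
      mv vio' (fun j => (ss j, idx j)) := by
    rw [ym, ← av_equiv (Equiv.arrowProdEquivProdArrow _ _ _).symm, av_prod]
    rfl
  rw [h, fe]
  constructor
  · simp only [← av_const_mul]
    exact av_mono fun ss => av_mono fun idx => (logPartition_bounds hβ ss idx).1
  · rw [← av_const (Ω := Fin M → Fin 3 → Bool) (N * Real.log 2), ← av_const_mul, ← av_sub]
    refine av_mono fun ss => ?_
    rw [← av_const (Ω := Fin M → Fin 3 → Fin N) (N * Real.log 2), ← av_const_mul, ← av_sub]
    exact av_mono fun idx => (logPartition_bounds hβ ss idx).2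

/-! ### Poisson moments -/

theorem poi_nonneg {l : ℝ} (hl : 0 ≤ l) (M : ℕ) : 0 ≤ poissonWeight l M := by
  unfold poissonWeight; positivity

theorem hasSum_poi₀ (l : ℝ) : HasSum (poissonWeight l) 1 := by
  convert! (NormedSpace.expSeries_div_hasSum_exp l).mul_left (Real.exp (-l)) using 1
  · funext k; unfold poissonWeight; ring
  · simp [← Real.exp_eq_exp_ℝ, ← Real.exp_add]

theorem poi_succ (l : ℝ) (M : ℕ) :
    poissonWeight l (M + 1) * ((M + 1 : ℕ) : ℝ) = l * poissonWeight l M := by
  unfold poissonWeight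
  rw [Nat.factorial_succ]
  push_cast
  field_simp
  ring

theorem hasSum_poi₁ (l : ℝ) : HasSum (fun M : ℕ => poissonWeight l M * M) l := by
  rw [← hasSum_nat_add_iff' 1]
  simpa only [poi_succ, Finset.range_one, Finset.sum_singleton, Nat.cast_zero, mul_zero, sub_zero,
    mul_one] using (hasSum_poi₀ l).mul_left l

theorem hasSum_poi₂ (l : ℝ) : HasSum (fun M : ℕ => poissonWeight l M * (M - l) ^ 2) l := by
  have h : HasSum (fun M : ℕ => poissonWeight l M * M * M) (l * (l + 1)) := by
    rw [← hasSum_nat_add_iff' 1]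
    simp only [poi_succ, Finset.range_one, Finset.sum_singleton, Nat.cast_zero, mul_zero, sub_zero]
    convert! ((hasSum_poi₁ l).add (hasSum_poi₀ l)).mul_left l using 1
    funext M
    push_cast
    ring
  convert! (h.sub ((hasSum_poi₁ l).mul_left (2 * l))).add ((hasSum_poi₀ l).mul_left (l ^ 2)) using 1
  · funext M; ring
  · ring

theorem exists_poi_dev {l : ℝ} (hl : 0 ≤ l) : ∃ d : ℕ → ℝ, (∀ M : ℕ, |(M : ℝ) - l| ≤ d M) ∧
    HasSum (fun M : ℕ => poissonWeight l M * d M) (√l) := by
  rcases hl.eq_or_lt with rfl | hl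
  · exact ⟨fun M => M, fun M => by simp, by simpa using hasSum_poi₁ 0⟩
  · have hs := Real.sqrt_pos.2 hl
    refine ⟨fun M => (√l + (M - l) ^ 2 / √l) / 2, fun M => ?_, ?_⟩
    · beta_reduce
      rw [← sq_abs, le_div_iff₀ two_pos, ← sub_le_iff_le_add', le_div_iff₀ hs]
      nlinarith [sq_nonneg (|(M : ℝ) - l| - √l)]
    · convert! (((hasSum_poi₀ l).mul_left (√l)).add ((hasSum_poi₂ l).div_const (√l))).div_const 2
        using 1
      · funext M; ring
      · rw [Real.div_sqrt]; ring

theorem satPressure_bounds (a β : ℝ) (ha : 0 ≤ a) (hβ : 0 ≤ β) (N : ℕ) (hN : 3 ≤ N) :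
    -β * (xm 3 N ⌊a * N⌋₊ + 1 + √(a * N) + 3 * a) / N ≤ satPressure a β N ∧
    satPressure a β N ≤ Real.log 2 - β * (xm 3 N ⌊a * N⌋₊ - 1 - √(a * N) - 3 * a) / N := by
  have hN0 : (0 : ℝ) < N := by exact_mod_cast (by omega : 0 < N)
  have hl : 0 ≤ a * N := by positivity
  obtain ⟨d, hd, hsd⟩ := exists_poi_dev hl
  set x := xm 3 N ⌊a * N⌋₊ with hx
  have hy : ∀ M : ℕ, |ym N M - x| ≤ 1 + d M + M * (3 / N) := fun M => by
    have h1 := abs_ym_sub_xm N M hN
    have h2 := abs_xm_sub_le 3 N M ⌊a * N⌋₊ hN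
    have h3 := abs_sub_le (ym N M) (xm 3 N M) x
    have h4 := abs_sub_le (M : ℝ) (a * N) ⌊a * N⌋₊
    have h5 : |a * N - ⌊a * N⌋₊| ≤ 1 := by
      rw [abs_of_nonneg (sub_nonneg.2 (Nat.floor_le hl))]
      linarith [Nat.lt_floor_add_one (a * N)]
    linarith [hd M]
  have he : HasSum (fun M : ℕ => poissonWeight (a * N) M * (1 + d M + M * (3 / N)))
      (1 + √(a * N) + 3 * a) := by
    convert! ((hasSum_poi₀ (a * N)).add hsd).add ((hasSum_poi₁ (a * N)).mul_right (3 / N : ℝ)) using 1
    · funext M; ring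
    · field_simp
  have hlo : HasSum (fun M : ℕ => poissonWeight (a * N) M * (-β * (x + (1 + d M + M * (3 / N)))))
      (-β * (x + 1 + √(a * N) + 3 * a)) := by
    convert! (((hasSum_poi₀ (a * N)).mul_right x).add he).mul_left (-β) using 1
    · funext M; ring
    · ring
  have hup : HasSum (fun M : ℕ => poissonWeight (a * N) M *
      (N * Real.log 2 - β * (x - (1 + d M + M * (3 / N)))))
      (N * Real.log 2 - β * (x - 1 - √(a * N) - 3 * a)) := by
    convert! ((hasSum_poi₀ (a * N)).mul_right (N * Real.log 2)).sub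
      ((((hasSum_poi₀ (a * N)).mul_right x).sub he).mul_left β) using 1
    · funext M; ring
    · ring
  have h1 : ∀ M : ℕ, poissonWeight (a * N) M * (-β * (x + (1 + d M + M * (3 / N)))) ≤
      poissonWeight (a * N) M * fe β N M := fun M => by
    refine mul_le_mul_of_nonneg_left (le_trans ?_ (fe_bounds hβ hN M).1) (poi_nonneg hl M)
    have := (abs_le.1 (hy M)).2
    nlinarith
  have h2 : ∀ M : ℕ, poissonWeight (a * N) M * fe β N M ≤ poissonWeight (a * N) M *
      (N * Real.log 2 - β * (x - (1 + d M + M * (3 / N)))) := fun M => by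
    refine mul_le_mul_of_nonneg_left ((fe_bounds hβ hN M).2.trans ?_) (poi_nonneg hl M)
    have := (abs_le.1 (hy M)).1
    nlinarith
  have hs : Summable fun M : ℕ => poissonWeight (a * N) M * fe β N M := by
    have := (Summable.of_nonneg_of_le (fun M => sub_nonneg.2 (h1 M))
      (fun M => sub_le_sub_right (h2 M) _) (hup.sub hlo).summable).add hlo.summable
    simpa only [sub_add_cancel] using this
  rw [satPressure_eq]
  constructor
  · rw [div_eq_inv_mul, one_div]
    exact mul_le_mul_of_nonneg_left (hasSum_le h1 hlo hs.hasSum) (by positivity)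
  · refine (mul_le_mul_of_nonneg_left (hasSum_le h2 hs.hasSum hup) (by positivity)).trans
      (le_of_eq ?_)
    field_simp

theorem le_satPressure (a β : ℝ) (ha : 0 ≤ a) (hβ : 0 ≤ β) (N : ℕ) (hN : 3 ≤ N) :
    -β * (xm 3 N ⌊a * N⌋₊ + 1 + √(a * N) + 3 * a) / N ≤ satPressure a β N :=
  (satPressure_bounds a β ha hβ N hN).1

theorem satPressure_le (a β : ℝ) (ha : 0 ≤ a) (hβ : 0 ≤ β) (N : ℕ) (hN : 3 ≤ N) :
    satPressure a β N ≤ Real.log 2 - β * (xm 3 N ⌊a * N⌋₊ - 1 - √(a * N) - 3 * a) / N :=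
  (satPressure_bounds a β ha hβ N hN).2

end Crest.Agent.R153
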