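import Crest.Agent.R153.TrialB

/-! Row 153: negativity of a 3-SAT trial functional is recursively enumerable. -/

set_option autoImplicit false
open MeasureTheory Filter Crest.ProbabilityR.RandomSAT Crest.ProbabilityR.Diluted

namespace Crest.Agent.R153.Num
open Finset Topology Crest.Agent.PrimrecRat Crest.Agent.R141

section Prim
variable {α : Type} [Primcodable α]

@[fun_prop] theorem pr_rho {q : α → ℚ} (hq : Primrec q) : Primrec fun x => rho (q x) := by
  unfold rho; fun_prop

@[fun_prop] theorem pr_tq {q : α → ℚ} {s : α → ℕ} (hq : Primrec q) (hs : Primrec s) :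
    Primrec fun x => tq (q x) (s x) := by
  unfold tq; fun_prop

@[fun_prop] theorem pr_ent {tab : α → List ℚ} {n i : α → ℕ} {p : α → List ℕ} (ht : Primrec tab)
    (hn : Primrec n) (hp : Primrec p) (hi : Primrec i) :
    Primrec fun x => ent (tab x) (n x) (p x) (i x) :=
  (Primrec.list_getD 0).comp ht (by fun_prop)

@[fun_prop] theorem pr_edgeq {η : α → ℚ} {tab : α → List ℚ} {n c : α → ℕ} {p : α → List ℕ}
    (hη : Primrec η) (ht : Primrec tab) (hn : Primrec n) (hc : Primrec c) (hp : Primrec p) :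
    Primrec fun x => edgeq (η x) (tab x) (n x) (c x) (p x) := by
  unfold edgeq; fun_prop

@[fun_prop] theorem pr_siteq {η : α → ℚ} {tab : α → List ℚ} {n k c : α → ℕ} {p : α → List ℕ}
    (hη : Primrec η) (ht : Primrec tab) (hn : Primrec n) (hk : Primrec k) (hc : Primrec c)
    (hp : Primrec p) : Primrec fun x => siteq (η x) (tab x) (n x) (k x) (c x) (p x) := by
  unfold siteq; fun_prop
end Prim

/-- lower approximation of the Poisson weight -/
def wq (α : ℚ) (N k : ℕ) : ℚ :=
  max (1 - α * 3 / (N + 1)) 0 ^ (N + 1) * ∏ i ∈ range k, α * 3 / (i + 1)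

/-- upper approximation of the site contribution -/
def SQ (N b a r n : ℕ) (tab : List ℚ) (k : ℕ) : ℚ :=
  (∑ c ∈ range (2 ^ (k * 3)), LT 1 N (a + r + 1) a r (n ^ (k * 2)) ((1 / (b + 1)) ^ k)
    (siteq (1 / (b + 1)) tab n k c)) / 8 ^ k

/-- lower approximation of the edge contribution -/
def EQ (N b a r n : ℕ) (tab : List ℚ) : ℚ :=
  (∑ c ∈ range (2 ^ 3), LT 0 N (a + r + 1) a r (n ^ 3) (1 / (b + 1))
    (edgeq (1 / (b + 1)) tab n c)) / 8

/-- upper approximation of the trial functional -/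
def Phi (α : ℚ) (N b a r n K : ℕ) (tab : List ℚ) : ℚ :=
  -lg 0 N (1 / 2) + ∑ k ∈ range K, wq α N k * SQ N b a r n tab k - α * 2 * EQ N b a r n tab

theorem pr_Phi {A : Type} [Primcodable A] {α : A → ℚ} {N b a r n K : A → ℕ} {tab : A → List ℚ}
    (hα : Primrec α) (hN : Primrec N) (hb : Primrec b) (ha : Primrec a) (hr : Primrec r)
    (hn : Primrec n) (hK : Primrec K) (ht : Primrec tab) :
    Primrec fun x => Phi (α x) (N x) (b x) (a x) (r x) (n x) (K x) (tab x) := by
  have h1 : Primrec fun x : A × ℕ => wq (α x.1) (N x.1) x.2 := by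
    unfold wq; fun_prop
  have h2 : Primrec fun x : A × ℕ =>
      SQ (N x.1) (b x.1) (a x.1) (r x.1) (n x.1) (tab x.1) x.2 := by
    unfold SQ
    refine pr_rat_div (pr_sum_range (by fun_prop) ?_) (by fun_prop)
    exact pr_LT (by fun_prop) (by fun_prop) (by fun_prop) (by fun_prop) (by fun_prop) (by fun_prop)
      (by fun_prop) (by fun_prop)
  have h3 : Primrec fun x => EQ (N x) (b x) (a x) (r x) (n x) (tab x) := by
    unfold EQ
    refine pr_rat_div (pr_sum_range (by fun_prop) ?_) (by fun_prop)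
    exact pr_LT (by fun_prop) (by fun_prop) (by fun_prop) (by fun_prop) (by fun_prop) (by fun_prop)
      (by fun_prop) (by fun_prop)
  unfold Phi
  exact pr_rat_sub (pr_rat_add (by fun_prop) (pr_sum_range hK (pr_rat_mul h1 h2)))
    (pr_rat_mul (by fun_prop) h3)

theorem poisson_eq (x : ℝ) (k : ℕ) :
    poissonWeight x k = Real.exp (-x) * ∏ i ∈ range k, x / (i + 1) := by
  rw [poissonWeight, prod_div_distrib, prod_const, card_range, mul_div_assoc,
    ← prod_range_add_one_eq_factorial]
  push_cast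
  rfl

theorem wq_spec {α : ℚ} (hα : 0 < α) (N k : ℕ) :
    (0 : ℝ) ≤ wq α N k ∧ (wq α N k : ℝ) ≤ poissonWeight (α * 3) k := by
  have hα' : (0 : ℝ) < α := by exact_mod_cast hα
  rw [poisson_eq]
  unfold wq
  push_cast
  refine ⟨by positivity, mul_le_mul_of_nonneg_right ?_ (by positivity)⟩
  rcases le_total (1 - (α : ℝ) * 3 / (N + 1)) 0 with h | h
  · rw [max_eq_right h, zero_pow (Nat.succ_ne_zero N)]; positivity
  · rw [max_eq_left h]
    have := Real.one_sub_div_pow_le_exp_neg (n := N + 1) (t := α * 3) (by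
      rw [sub_nonneg, div_le_one (by positivity)] at h; push_cast; exact h)
    push_cast at this
    exact this

theorem wq_tendsto (α : ℚ) (k : ℕ) :
    Tendsto (fun N => (wq α N k : ℝ)) atTop (𝓝 (poissonWeight (α * 3) k)) := by
  rw [poisson_eq]
  unfold wq
  push_cast
  refine Tendsto.mul_const _ ?_
  have h1 := (Real.tendsto_one_add_div_pow_exp (-((α : ℝ) * 3))).comp (tendsto_add_atTop_nat 1)
  refine h1.congr' ?_
  filter_upwards [eventually_ge_atTop ⌈(α : ℝ) * 3⌉₊] with N hN
  have h2 : (α : ℝ) * 3 ≤ N := Nat.ceil_le.1 hN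
  rw [max_eq_left (by rw [sub_nonneg, div_le_one (by positivity)]; linarith)]
  simp only [Function.comp_apply]
  push_cast
  rw [neg_div, sub_eq_add_neg]

theorem eta_pos (b : ℕ) : (0 : ℚ) < 1 / (b + 1) := by positivity

theorem eta_le (b : ℕ) : (1 / (b + 1) : ℚ) ≤ 1 := by
  rw [div_le_one (by positivity)]; linarith [Nat.cast_nonneg (α := ℚ) b]

theorem SR_bounds (b a r : ℕ) {n : ℕ} (hn : 0 < n) (tab : List ℚ) (k : ℕ) :
    k * ((a + r + 1 : ℕ) * Real.log ((1 / (b + 1) : ℚ) : ℝ)) ≤ SR b a r n tab k ∧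
      SR b a r n tab k ≤ 0 := by
  have h := fun c => LTR_bounds (T := a + r + 1) (B := n ^ (k * 2)) (by omega) (by positivity) a r
    (leaf := fun p => siteq (1 / (b + 1)) tab n k c p) (L := ((1 / (b + 1) : ℚ) : ℝ) ^ k)
    (pow_pos (Rat.cast_pos.2 (eta_pos b)) _) fun p => by
      have := siteq_bounds (eta_pos b) (eta_le b) tab n k c p
      exact ⟨by exact_mod_cast this.1, by exact_mod_cast this.2⟩
  unfold SR
  constructor
  · rw [le_div_iff₀ (by positivity)]
    have := sum_le_sum (s := range (2 ^ (k * 3))) fun c _ => (h c).1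
    rw [sum_const, card_range, nsmul_eq_mul, Real.log_pow] at this
    refine le_trans (le_of_eq ?_) this
    rw [mul_comm k 3, pow_mul, Nat.cast_pow]
    norm_num
    ring
  · exact div_nonpos_of_nonpos_of_nonneg (sum_nonpos fun c _ => (h c).2) (by positivity)

theorem summable_SR {α : ℝ} (hα : 0 ≤ α) (b a r : ℕ) {n : ℕ} (hn : 0 < n) (tab : List ℚ) :
    Summable fun k => poissonWeight (α * 3) k * SR b a r n tab k := by
  refine Summable.of_norm_bounded (Approx.summable_poisson (α * 3) 0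
    (-((a + r + 1 : ℕ) * Real.log ((1 / (b + 1) : ℚ) : ℝ)))) fun k => ?_
  have hw : 0 ≤ poissonWeight (α * 3) k := by unfold poissonWeight; positivity
  obtain ⟨h1, h2⟩ := SR_bounds b a r hn tab k
  rw [norm_mul, Real.norm_of_nonneg hw, Real.norm_of_nonpos h2]
  exact mul_le_mul_of_nonneg_left (by linarith) hw

theorem le_Phi {α : ℚ} (hα : 0 < α) (N b a r n K : ℕ) [NeZero n] (tab : List ℚ) :
    satTrial α (Real.log (b + 1)) r (fun d => ((a + d + 1 : ℕ) : ℝ) / (a + r + 1 : ℕ))
      (XT r n tab) ≤ Phi α N b a r n K tab := by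
  have hα' : (0 : ℝ) < α := by exact_mod_cast hα
  have hn := NeZero.pos n
  have h1 : Real.log 2 ≤ -lg 0 N (1 / 2) := by
    have := (lg_spec N (q := 1 / 2) (by norm_num) (by norm_num)).1
    rw [show ((1 / 2 : ℚ) : ℝ) = 2⁻¹ by norm_num, Real.log_inv] at this
    linarith
  have h2 : ∑' k, poissonWeight (α * 3) k * SR b a r n tab k ≤
      ∑ k ∈ range K, poissonWeight (α * 3) k * SR b a r n tab k := by
    have := (summable_SR hα'.le b a r hn tab).neg.sum_le_tsum (range K) fun k _ =>
      neg_nonneg.2 (mul_nonpos_of_nonneg_of_nonpos (by unfold poissonWeight; positivity)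
        (SR_bounds b a r hn tab k).2)
    rw [tsum_neg, sum_neg_distrib] at this
    linarith
  have h3 : ∀ k, SR b a r n tab k ≤ SQ N b a r n tab k := fun k => by
    unfold SR SQ
    rw [Rat.cast_div, Rat.cast_sum, Rat.cast_pow, Rat.cast_ofNat]
    exact div_le_div_of_nonneg_right (sum_le_sum fun c _ => (LT_spec (by omega) (by positivity)
      N a r (pow_pos (eta_pos b) _) (siteq_bounds (eta_pos b) (eta_le b) tab n k c)).2)
      (by positivity)
  have h4 : (EQ N b a r n tab : ℝ) ≤ ER b a r n tab := by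
    unfold ER EQ
    rw [Rat.cast_div, Rat.cast_sum, Rat.cast_ofNat]
    exact div_le_div_of_nonneg_right (sum_le_sum fun c _ => (LT_spec (by omega) (by positivity)
      N a r (eta_pos b) (edgeq_bounds (eta_le b) tab n c)).1) (by positivity)
  have h5 := sum_le_sum (s := range K) fun k _ =>
    (mul_le_mul_of_nonpos_right (wq_spec hα N k).2 (SR_bounds b a r hn tab k).2).trans
      (mul_le_mul_of_nonneg_left (h3 k) (wq_spec hα N k).1)
  have h6 := mul_le_mul_of_nonneg_left h4 (by positivity : (0 : ℝ) ≤ α * 2)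
  rw [trial_eq]
  unfold Phi
  push_cast
  linarith

theorem Phi_tendsto (α : ℚ) (b a r : ℕ) {n : ℕ} (hn : 0 < n) (K : ℕ) (tab : List ℚ) :
    Tendsto (fun N => (Phi α N b a r n K tab : ℝ)) atTop (𝓝 (Real.log 2 +
      ∑ k ∈ range K, poissonWeight (α * 3) k * SR b a r n tab k - α * 2 * ER b a r n tab)) := by
  have h1 := (lg_tendsto (u := 0) (Nat.zero_le _) (L := 1 / 2) (by norm_num)
    (q := fun _ => 1 / 2) (fun _ => ⟨le_rfl, by norm_num⟩) tendsto_const_nhds).neg
  rw [show ((1 / 2 : ℚ) : ℝ) = 2⁻¹ by norm_num, Real.log_inv, neg_neg] at h1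
  have h3 : ∀ k, Tendsto (fun N => (SQ N b a r n tab k : ℝ)) atTop (𝓝 (SR b a r n tab k)) :=
    fun k => by
    unfold SR SQ
    simp only [Rat.cast_div, Rat.cast_sum, Rat.cast_pow, Rat.cast_ofNat]
    exact (tendsto_finsetSum _ fun c _ => LT_tendsto le_rfl (by omega) (by positivity) a r
      (pow_pos (eta_pos b) _) (siteq_bounds (eta_pos b) (eta_le b) tab n k c)).div_const _
  have h4 : Tendsto (fun N => (EQ N b a r n tab : ℝ)) atTop (𝓝 (ER b a r n tab)) := by
    unfold ER EQ
    simp only [Rat.cast_div, Rat.cast_sum, Rat.cast_ofNat]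
    exact (tendsto_finsetSum _ fun c _ => LT_tendsto (Nat.zero_le _) (by omega) (by positivity) a r
      (eta_pos b) (edgeq_bounds (eta_le b) tab n c)).div_const _
  unfold Phi
  push_cast
  exact (h1.add (tendsto_finsetSum _ fun k _ => (wq_tendsto α k).mul (h3 k))).sub (h4.const_mul _)

theorem exists_tab (r n : ℕ) (f : (Fin (r + 1) → Fin n) → ℚ) : ∃ tab : List ℚ,
    ∀ y, tab.getD (Encodable.encode (List.ofFn fun j => (y j : ℕ))) 0 = f y := by
  let key : (Fin (r + 1) → Fin n) → ℕ := fun y => Encodable.encode (List.ofFn fun j => (y j : ℕ))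
  have hk : Function.Injective key := fun y y' h => by
    have := List.ofFn_injective (Encodable.encode_injective h)
    funext j
    exact Fin.ext (congrFun this j)
  refine ⟨(List.range (univ.sup key + 1)).map (Function.extend key f 0), fun y => ?_⟩
  have : key y < univ.sup key + 1 := Nat.lt_succ_of_le (le_sup (mem_univ y))
  change List.getD _ (key y) 0 = _
  rw [List.getD_eq_getElem _ _ (by simpa using this), List.getElem_map, List.getElem_range,
    hk.extend_apply]

theorem admissible {T a r : ℕ} (h : a + r + 1 = T) :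
    AdmissibleExponents fun d : Fin r => ((a + d + 1 : ℕ) : ℝ) / T := by
  have hT : (0 : ℝ) < T := by subst h; positivity
  refine ⟨fun i j hij => div_lt_div_of_pos_right ?_ hT, fun d => ⟨by positivity, ?_⟩⟩
  · exact_mod_cast (by have : i.val < j.val := hij; omega : a + i + 1 < a + j + 1)
  · rw [div_lt_one hT]
    exact_mod_cast (by have := d.2; omega : a + d + 1 < T)

theorem exists_Phi {α : ℚ} (hα : 0 < α) (b a r : ℕ) (X : (Fin (r + 1) → unitInterval) → ℝ)
    (hX : Measurable X) (h : satTrial α (Real.log (b + 1)) r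
      (fun d => ((a + d + 1 : ℕ) : ℝ) / (a + r + 1 : ℕ)) X < 0) :
    ∃ N n K tab, Phi α N b a r (n + 1) K tab < 0 := by
  have hα' : (0 : ℝ) < α := by exact_mod_cast hα
  have hν : Integrable (fun x : ℝ => x) (Measure.dirac 0) := integrable_dirac enorm_lt_top
  obtain ⟨n, _, g, hg⟩ := trial_approx 3 (by norm_num) α hα'.le (satLaw (Real.log (b + 1)))
    (Measure.dirac 0) (integrable_satLaw _ _) hν r _ (admissible (a := a) rfl) X hX _
    (half_pos (neg_pos.2 h))
  obtain ⟨n, rfl⟩ := Nat.exists_eq_succ_of_ne_zero (NeZero.ne n)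
  have h1 : ∀ y, ∃ q : ℕ → ℚ, Tendsto (fun i => Real.log (rho (q i))) atTop (𝓝 (g y)) := by
    intro y
    obtain ⟨q, -, hq, hq'⟩ := Real.exists_seq_rat_strictAnti_tendsto (Real.exp (g y))
    refine ⟨q, ?_⟩
    have := hq'.log (Real.exp_pos _).ne'
    rw [Real.log_exp] at this
    refine this.congr fun i => ?_
    rw [rho, if_pos (by exact_mod_cast (Real.exp_pos _).trans (hq i))]
  choose q hq using h1
  choose tab htab using fun i => exists_tab r (n + 1) fun y => q y i
  have h2 := Approx.trial_tendsto 3 α hα'.le (satLaw (Real.log (b + 1))) (Measure.dirac 0)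
    (integrable_satLaw _ _) hν _ (fun d => ((admissible (a := a) (r := r) rfl).2 d).1)
    (X := fun i => XT r (n + 1) (tab i)) (Y := fun u => g fun j => grid (n + 1) (u j))
    (fun i => measurable_XT _ _ _) (ae_of_all _ fun u => by
      simp only [XT, htab]; exact hq _)
  obtain ⟨i, hi⟩ := (h2.eventually (gt_mem_nhds (a := 0) (by
    have := (abs_le.1 hg).2
    unfold satTrial at h this
    linarith))).exists
  have hi' := (trial_eq α b a r (n + 1) (tab i)).symm.trans_lt hi
  have h3 := (((summable_SR hα'.le b a r n.succ_pos (tab i)).hasSum.tendsto_sum_nat).const_add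
    (Real.log 2)).sub_const (α * 2 * ER b a r (n + 1) (tab i))
  obtain ⟨K, hK⟩ := (h3.eventually (gt_mem_nhds hi')).exists
  obtain ⟨N, hN⟩ := ((Phi_tendsto α b a r n.succ_pos K (tab i)).eventually (gt_mem_nhds hK)).exists
  exact ⟨N, n, K, tab i, by exact_mod_cast hN⟩

theorem exists_surj (A : Type) [Primcodable A] [Inhabited A] :
    ∃ D : ℕ → A, Primrec D ∧ Function.Surjective D :=
  ⟨fun t => (Encodable.decode t).getD default, Primrec.option_getD_default.comp Primrec.decode,
    fun x => ⟨Encodable.encode x, by simp only [Encodable.encodek, Option.getD_some]⟩⟩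

end Crest.Agent.R153.Num

namespace Crest.Agent.R153
open Crest.Agent.R153.Num Crest.Agent.PrimrecRat

theorem upper_re : ∃ (β : ℕ → ℝ) (U : ℚ × ℕ → Prop), (∀ b, 0 ≤ β b) ∧ Tendsto β atTop atTop ∧
    ComputablePred U ∧ ∀ a : ℚ, 0 < a →
      (∀ t, U (a, t) → ∃ (b r : ℕ) (m : Fin r → ℝ) (X : (Fin (r + 1) → unitInterval) → ℝ),
        AdmissibleExponents m ∧ Measurable X ∧ satTrial a (β b) r m X < 0) ∧
      (∀ (b T a₀ r : ℕ) (X : (Fin (r + 1) → unitInterval) → ℝ), a₀ + r + 1 = T → Measurable X →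
        satTrial a (β b) r (fun d => ((a₀ + d + 1 : ℕ) : ℝ) / T) X < 0 → ∃ t, U (a, t)) := by
  obtain ⟨D, hD, hD'⟩ := exists_surj (((ℕ × ℕ × ℕ) × (ℕ × ℕ × ℕ)) × List ℚ)
  refine ⟨fun b => Real.log (b + 1), fun x => Phi x.1 (D x.2).1.1.1 (D x.2).1.1.2.1 (D x.2).1.1.2.2
    (D x.2).1.2.1 ((D x.2).1.2.2.1 + 1) (D x.2).1.2.2.2 (D x.2).2 < 0,
    fun b => Real.log_nonneg (by linarith [Nat.cast_nonneg (α := ℝ) b]),
    Real.tendsto_log_atTop.comp (tendsto_atTop_add_const_right _ _ tendsto_natCast_atTop_atTop),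
    PrimrecPred.computablePred (pp_rat_lt (pr_Phi (by fun_prop) (by fun_prop) (by fun_prop)
      (by fun_prop) (by fun_prop) (by fun_prop) (by fun_prop) (by fun_prop)) (by fun_prop)),
    fun a ha => ⟨fun t ht => ?_, fun b T a₀ r X hT hX h => ?_⟩⟩
  · exact ⟨_, _, _, _, admissible rfl, measurable_XT _ _ _,
      (le_Phi ha _ _ _ _ _ _ _).trans_lt (by exact_mod_cast ht)⟩
  · subst hT
    obtain ⟨N, n, K, tab, h'⟩ := exists_Phi ha b a₀ r X hX h
    obtain ⟨t, ht⟩ := hD' (((N, b, a₀), (r, n, K)), tab)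
    exact ⟨t, by simpa only [ht] using h'⟩

end Crest.Agent.R153
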