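import Crest.Agent.R153.FinalCore
import Crest.Agent.R153.Transfer
import Crest.Agent.R153.Trial

/-! Row 153: the threshold of random 3-SAT is computable, given the three analytic facts. -/

set_option autoImplicit false
open MeasureTheory Filter Crest.ProbabilityR.RandomSAT Crest.ProbabilityR.Diluted

namespace Crest.Agent.R153

theorem final (α : ℝ) (hα : IsSharpThreshold (satProb 3) α)
    (hgap : ∃ c : ℝ, 0 < c ∧ ∀ η : ℝ, 0 < η → η ≤ 1 →
      ∀ᶠ n : ℕ in atTop, c * η ^ 2 * n ≤ xm 3 n ⌊(α + η) * n⌋₊)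
    (hup : ∀ a β : ℝ, 0 < a → 0 ≤ β → ∀ (r : ℕ) (m : Fin r → ℝ) (X : (Fin (r + 1) → unitInterval) → ℝ),
      AdmissibleExponents m → Measurable X → ∀ N : ℕ, 1 ≤ N → satPressure a β N ≤ satTrial a β r m X)
    (hlow : ∀ a β : ℝ, 0 < a → 0 ≤ β → ∀ c : ℝ,
      (∀ T a₀ r : ℕ, a₀ + r + 1 = T → ∀ X : (Fin (r + 1) → unitInterval) → ℝ, Measurable X →
        c ≤ satTrial a β r (fun d => ((a₀ + d + 1 : ℕ) : ℝ) / T) X) →
      ∀ ε : ℝ, 0 < ε → ∀ᶠ N : ℕ in atTop, c - ε ≤ satPressure a β N) :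
    ∃ f : ℕ → ℕ, Computable f ∧ ∀ r : ℕ, |(f r : ℝ) / 2 ^ r - α| ≤ 1 / 2 ^ r :=
  final_of xm_mono xm_le le_satPressure satPressure_le upper_re α hα hgap hup hlow

end Crest.Agent.R153
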