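import Crest.Agent.R153.Defs
import Crest.Agent.R141.Factor

/-! The interaction law of random 3-SAT. -/

set_option autoImplicit false
open MeasureTheory Filter Crest.ProbabilityR.RandomSAT Crest.ProbabilityR.Diluted
namespace Crest.Agent.R153

theorem pi_smul_sum_dirac {ι Ω X : Type} [Fintype ι] [DecidableEq ι] [Fintype Ω]
    [MeasurableSpace X] (c : ENNReal) (φ : Ω → X)
    [SigmaFinite (c • ∑ s : Ω, Measure.dirac (φ s))] :
    (Measure.pi fun _ : ι => c • ∑ s : Ω, Measure.dirac (φ s)) =
      c ^ Fintype.card ι • ∑ ss : ι → Ω, Measure.dirac (fun j => φ (ss j)) := by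
  classical
  refine Measure.pi_eq fun s hs => ?_
  simp only [Measure.smul_apply, Measure.coe_finsetSum, Finset.sum_apply, smul_eq_mul,
    Measure.dirac_apply' _ (hs _), Measure.dirac_apply' _ (MeasurableSet.univ_pi hs)]
  rw [Finset.prod_mul_distrib, Finset.prod_const, Finset.card_univ, Finset.prod_univ_sum,
    Fintype.piFinset_univ]
  congr 1
  refine Finset.sum_congr rfl fun ss _ => ?_
  simp only [Set.indicator_apply, Set.mem_univ_pi, Pi.one_apply]
  rw [Finset.prod_ite_zero]
  simp

theorem integrable_smul_sum_dirac {Ω X : Type} [Fintype Ω] [MeasurableSpace X]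
    [MeasurableSingletonClass X] {c : ENNReal} (hc : c ≠ ⊤) (φ : Ω → X) (G : X → ℝ) :
    Integrable G (c • ∑ s : Ω, Measure.dirac (φ s)) :=
  (integrable_finsetSum_measure.2 fun _ _ => integrable_dirac enorm_lt_top).smul_measure hc

theorem integral_smul_sum_dirac {Ω X : Type} [Fintype Ω] [MeasurableSpace X]
    [MeasurableSingletonClass X] (c : ENNReal) (φ : Ω → X) (G : X → ℝ) :
    ∫ x, G x ∂(c • ∑ s : Ω, Measure.dirac (φ s)) = c.toReal * ∑ s : Ω, G (φ s) := by
  rw [integral_smul_measure, integral_finsetSum_measure fun _ _ => integrable_dirac enorm_lt_top]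
  simp only [integral_dirac, smul_eq_mul]

theorem integral_pi_satLaw (β : ℝ) (M : ℕ) (G : (Fin M → Inter 3) → ℝ) :
    ∫ θs, G θs ∂(Measure.pi fun _ : Fin M => satLaw β) =
      ((8 : ℝ) ^ M)⁻¹ * ∑ ss : Fin M → Fin 3 → Bool, G (fun j => satInter β (ss j)) := by
  have : SigmaFinite ((8 : ENNReal)⁻¹ • ∑ s : Fin 3 → Bool, Measure.dirac (satInter β s)) :=
    (inferInstance : SigmaFinite (satLaw β))
  unfold satLaw
  rw [pi_smul_sum_dirac, integral_smul_sum_dirac]
  simp

theorem integral_satLaw (β : ℝ) (G : Inter 3 → ℝ) :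
    ∫ θ, G θ ∂(satLaw β) = (8 : ℝ)⁻¹ * ∑ s : Fin 3 → Bool, G (satInter β s) := by
  unfold satLaw
  rw [integral_smul_sum_dirac]
  simp

theorem integrable_satLaw (β : ℝ) (G : Inter 3 → ℝ) : Integrable G (satLaw β) :=
  integrable_smul_sum_dirac (by simp) _ G

/-- the fair coin -/
noncomputable def coin : Measure Bool := (2 : ENNReal)⁻¹ • ∑ b : Bool, Measure.dirac (id b)

instance : IsProbabilityMeasure coin := ⟨by
  simp [coin, ENNReal.inv_two_add_inv_two]⟩

theorem hasFacC_satLaw (β : ℝ) (hβ : 0 ≤ β) : R141.HasFacC 3 (satLaw β) := by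
  let g : Bool → Bool → ℝ := fun w s => if s = w then 1 else 0
  have he1 : Real.exp (-β) ≤ 1 := Real.exp_le_one_iff.2 (by linarith)
  have he0 := Real.exp_pos (-β)
  have hprod : ∀ ω s : Fin 3 → Bool, ∏ ℓ, g (ω ℓ) (s ℓ) = if s = ω then 1 else 0 := by
    intro ω s
    simp only [g]
    rw [Finset.prod_ite_zero]
    simp [funext_iff]
  refine ⟨Fin 3 → Bool, inferInstance, Measure.pi fun _ => coin, inferInstance, fun _ => 1,
    fun _ => -(1 - Real.exp (-β)), fun ℓ ω => g (ω ℓ), measurable_const, measurable_const,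
    fun ℓ => Measurable.of_discrete,
    ProbabilityTheory.iIndepFun_pi (X := fun _ => g) fun _ => Measurable.of_discrete.aemeasurable,
    fun ℓ => ?_, ProbabilityTheory.indepFun_const_left _ _, Eventually.of_forall fun ω => ?_,
    fun n _ => ⟨integrable_const _, integral_nonneg fun ω => ?_⟩, ?_,
    Or.inr fun ℓ => Eventually.of_forall fun ω s => ?_⟩
  · have h : ∀ ℓ : Fin 3, (Measure.pi fun _ : Fin 3 => coin).map (fun ω => g (ω ℓ)) =
        coin.map g := fun ℓ => by
      conv_rhs => rw [← (measurePreserving_eval (fun _ : Fin 3 => coin) ℓ).map_eq]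
      rw [Measure.map_map Measurable.of_discrete Measurable.of_discrete]
      rfl
    exact ⟨Measurable.of_discrete.aemeasurable, Measurable.of_discrete.aemeasurable,
      (h ℓ).trans (h _).symm⟩
  · refine ⟨one_pos, fun s => ?_⟩
    rw [hprod]
    split_ifs
    · rw [mul_one, abs_neg, abs_of_nonneg (by linarith)]; linarith
    · simp
  · exact pow_nonneg (by linarith) _
  · have : SigmaFinite ((2 : ENNReal)⁻¹ • ∑ b : Bool, Measure.dirac (id b)) :=
      (inferInstance : SigmaFinite coin)
    unfold coin satLaw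
    rw [pi_smul_sum_dirac, ← Measure.mapₗ_apply_of_measurable Measurable.of_discrete, map_smul,
      map_sum]
    congr 1
    · rw [Fintype.card_fin, ← ENNReal.inv_pow]; norm_num
    · refine Finset.sum_congr rfl fun ss _ => ?_
      rw [Measure.mapₗ_apply_of_measurable Measurable.of_discrete,
        Measure.map_dirac' Measurable.of_discrete]
      congr 1
      ext s
      simp only [id, hprod, satInter]
      split_ifs <;> simp
  · simp only [g]
    split_ifs <;> simp

end Crest.Agent.R153
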