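import Crest.Agent.R153.Law
import Crest.Agent.R153.TrialA
import Crest.Agent.R141.Glue
import Crest.Agent.R141.Approx

/-! Row 153: the trial functional of a grid trial map as a finite recursion. -/

set_option autoImplicit false
open MeasureTheory Filter Finset Function Crest.ProbabilityR.Diluted Crest.Agent.R141

namespace Crest.Agent.R153.Num

theorem sum_digits {ι : Type} [Fintype ι] [DecidableEq ι] {ℓ : ℕ} (pos : ι ≃ Fin ℓ) {n : ℕ}
    (hn : 0 < n) (G : (ι → Fin n) → ℝ) :
    ∑ x : ι → Fin n, G x =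
      ∑ y ∈ range (n ^ ℓ), G (fun s => ⟨y / n ^ (pos s : ℕ) % n, Nat.mod_lt _ hn⟩) := by
  rw [← Fin.sum_univ_eq_sum_range (fun y => G fun s => ⟨y / n ^ (pos s : ℕ) % n, Nat.mod_lt _ hn⟩)]
  exact (Fintype.sum_equiv (finFunctionFinEquiv.symm.trans (pos.symm.arrowCongr (Equiv.refl _))) _ _
    fun y => rfl).symm

theorem card_digits {ι : Type} [Fintype ι] [DecidableEq ι] {ℓ : ℕ} (pos : ι ≃ Fin ℓ) (n : ℕ) :
    Fintype.card (ι → Fin n) = n ^ ℓ := by
  rw [Fintype.card_fun, Fintype.card_congr pos, Fintype.card_fin, Fintype.card_fin]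

/-- the levels with exponents `(a+j+1)/T` -/
noncomputable def lev (T a r : ℕ) (h : a + r + 1 = T) : Lev where
  T := r + 1
  m j := min (((a + j + 1 : ℕ) : ℝ) / T) 1
  T_pos := Nat.succ_pos r
  m_pos j := lt_min (div_pos (by positivity) (by subst h; positivity)) one_pos
  mono i j hij := min_le_min_right _ (by gcongr)
  last := by
    rw [Nat.add_sub_cancel, h, div_self (by subst h; positivity), min_self]

theorem lev_m {T a r : ℕ} (h : a + r + 1 = T) {t : ℕ} (ht : t ≤ r) :
    (lev T a r h).m t = ((a + t + 1 : ℕ) : ℝ) / T := by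
  refine min_eq_left ?_
  rw [div_le_one (by subst h; positivity)]
  exact_mod_cast (by omega : a + t + 1 ≤ T)

theorem link {Lab : Type} [Fintype Lab] [DecidableEq Lab] {ℓ : ℕ} (pos : Lab ≃ Fin ℓ) (n : ℕ)
    [NeZero n] {T a r : ℕ} (h : a + r + 1 = T) (τ : List ℕ → ℝ) (W : (Lab → ℝ) → ℝ)
    (hW : ∀ x, 0 < W x) :
    ∫ u, Real.log (powerMeans (fun d : Fin r => ((a + d + 1 : ℕ) : ℝ) / T)
      (fun u' : Lab → Fin (r + 1) → unitInterval =>
        W (fun s => τ (List.ofFn fun j => (grid n (u' s j) : ℕ)))) u) ∂(uniformArrays Lab r) =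
      LTR T a r (n ^ ℓ) fun p => W fun s => τ (p.map fun y => y / n ^ (pos s : ℕ) % n) := by
  have hT : 0 < T := by omega
  have hT' : (0 : ℝ) < T := by exact_mod_cast hT
  have hn := NeZero.pos n
  have hB : (0 : ℝ) < (n ^ ℓ : ℕ) := by positivity
  set leaf : List ℕ → ℝ := fun p => W fun s => τ (p.map fun y => y / n ^ (pos s : ℕ) % n)
    with hleaf
  set g : (Fin (r + 1) → Fin n) → ℝ := fun y => τ (List.ofFn fun j => (y j : ℕ)) with hg
  have hv : ∀ x, volume (grid n ⁻¹' {x}) = ENNReal.ofReal (Fintype.card (Fin n) : ℝ)⁻¹ :=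
    fun x => by rw [volume_grid]; simp
  have := glue (Lab := Lab) (Sys.unif (lev T a r h) (Fin n)) 0 r (by simp [lev])
    (fun d : Fin r => ((a + d + 1 : ℕ) : ℝ) / T)
    (fun d => by rw [zero_add, lev_m h d.2.le]) (grid n) (fun _ _ => grid n) (measurableSet_grid n)
    (fun _ _ => measurableSet_grid n) hv (fun _ _ => hv) (fun _ => 0)
    (fun x₀ ω' => g (Fin.cons x₀ fun d : Fin r => ω' d)) W hW
  rw [Sys.pi_unif, trialOf_grid] at this
  refine this.trans ?_
  have hpos : ∀ d p, 0 < treeR T a (n ^ ℓ) leaf d p := by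
    intro d
    induction d with
    | zero => exact fun p => Real.rpow_pos_of_pos (hW _) _
    | succ d ih =>
      exact fun p => Real.rpow_pos_of_pos (div_pos (sum_pos (fun x _ => pow_pos (ih _) _)
        ⟨0, mem_range.2 (by positivity)⟩) hB) _
  have key : ∀ (x₀ : Lab → Fin n) (d t : ℕ), t + d = r → ∀ (ω : ℕ → Lab → Fin n) (p : List ℕ),
      p.length = t + 1 → (∀ s, (p.map fun y => y / n ^ (pos s : ℕ) % n) =
        (x₀ s : ℕ) :: (List.range t).map fun i => (ω i s : ℕ)) →
      (Sys.unif (lev T a r h) (Lab → Fin n)).Xk d t (fun ω' => Real.log (W fun s =>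
        g (Fin.cons (x₀ s) fun d : Fin r => pmap (fun _ x => x s) ω' d))) ω =
      T * Real.log (treeR T a (n ^ ℓ) leaf d p) := by
    intro x₀ d
    induction d with
    | zero =>
      intro t ht ω p _ hp
      obtain rfl : t = r := by omega
      simp only [Sys.Xk, treeR]
      rw [Real.log_rpow (hW _), ← mul_assoc, mul_inv_cancel₀ hT'.ne', one_mul]
      congr 2
      funext s
      rw [hp s, hg]
      simp only [List.ofFn_succ, Fin.cons_zero, Fin.cons_succ, R141.pmap]
      rw [List.ofFn_eq_map, ← List.map_coe_finRange_eq_range, List.map_map]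
      rfl
    | succ d ih =>
      intro t ht ω p hl hp
      have hj : (0 : ℝ) < (a + p.length : ℕ) := by rw [hl]; positivity
      simp only [Sys.Xk, Sys.Q, Sys.P_apply, treeR]
      rw [lev_m h (by omega : t ≤ r), show a + t + 1 = a + p.length by omega,
        Real.log_rpow (div_pos (sum_pos (fun x _ => pow_pos (hpos _ _) _)
          ⟨0, mem_range.2 (by positivity)⟩) hB), one_div_div, div_eq_mul_inv (T : ℝ), mul_assoc]
      congr 3
      rw [sum_digits pos hn, div_eq_inv_mul _ ((n ^ ℓ : ℕ) : ℝ), mul_sum]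
      refine sum_congr rfl fun y _ => ?_
      congr 1
      · simp only [Sys.unif, card_digits pos]
      rw [ih (t + 1) (by omega) _ (p ++ [y]) (by simp [hl]), ← mul_assoc, div_mul_cancel₀ _ hT'.ne',
        Real.exp_nat_mul, Real.exp_log (hpos _ _)]
      intro s
      rw [List.map_append, hp s, List.range_succ, List.map_append, List.cons_append]
      congr 2
      · exact List.map_congr_left fun i hi => by rw [update_of_ne (List.mem_range.1 hi).ne]
      · simp
  unfold LTR
  rw [card_digits pos, div_eq_inv_mul]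
  rw [sum_digits pos hn]
  refine congrArg _ (sum_congr rfl fun y _ => ?_)
  exact key (fun s => ⟨y / n ^ (pos s : ℕ) % n, Nat.mod_lt _ hn⟩) r 0 (by omega) _ [y] rfl
    fun s => by simp

theorem sum_bits {ι : Type} [Fintype ι] [DecidableEq ι] {ℓ : ℕ} (pos : ι ≃ Fin ℓ)
    (F : (ι → Bool) → ℝ) :
    ∑ s, F s = ∑ c ∈ range (2 ^ ℓ), F (fun i => decide (c / 2 ^ (pos i : ℕ) % 2 = 1)) := by
  rw [← Fintype.sum_equiv ((Equiv.refl ι).arrowCongr finTwoEquiv)
    (fun x => F fun i => decide ((x i : ℕ) = 1)) F fun x => ?_, sum_digits pos two_pos]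
  congr 1
  funext i
  simp only [Equiv.arrowCongr_apply, Equiv.coe_refl, Equiv.refl_symm, comp_apply, id]
  generalize x i = y
  revert y
  decide

theorem sum_signs (k : ℕ) (F : (Fin k → Fin 3 → Bool) → ℝ) :
    ∑ s, F s = ∑ c ∈ range (2 ^ (k * 3)),
      F (fun j i => decide (c / 2 ^ ((i : ℕ) + 3 * j) % 2 = 1)) := by
  rw [← Fintype.sum_equiv (Equiv.curry (Fin k) (Fin 3) Bool) (fun x => F fun j i => x (j, i)) F
    fun x => rfl, sum_bits finProdFinEquiv]
  rfl

theorem mix_eq {q : ℕ} (φ : (Fin q → Bool) → ℝ) (x : Fin q → ℝ) (β : ℝ) (s : Fin q → Bool)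
    (P : Prop) [Decidable P] (h : ∀ t, φ t = if t = s ∧ P then -β else 0) :
    ∑ t, Real.exp (φ t) * ∏ ℓ, tilt (x ℓ) (t ℓ) =
      1 - (1 - Real.exp (-β)) * if P then ∏ ℓ, tilt (x ℓ) (s ℓ) else 0 := by
  have h1 : ∑ s : Fin q → Bool, ∏ ℓ, tilt (x ℓ) (s ℓ) = 1 := by
    rw [← Fintype.piFinset_univ, ← Finset.prod_univ_sum]
    simp only [Approx.sum_tilt, Finset.prod_const_one]
  by_cases hP : P
  · have h2 : ∀ t, Real.exp (φ t) * ∏ ℓ, tilt (x ℓ) (t ℓ) = ∏ ℓ, tilt (x ℓ) (t ℓ) -
        if t = s then (1 - Real.exp (-β)) * ∏ ℓ, tilt (x ℓ) (s ℓ) else 0 := by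
      intro t
      rw [h t]
      by_cases ht : t = s
      · subst ht; simp only [hP, and_self, if_true]; ring
      · simp [ht]
    simp only [h2, sum_sub_distrib, h1, hP, if_true, sum_ite_eq', mem_univ]
  · simp [h, hP, h1]

/-- a positive rational attached to a table entry -/
def rho (q : ℚ) : ℚ := if 0 < q then q else 1

theorem rho_pos (q : ℚ) : 0 < rho q := by
  unfold rho; split_ifs with h; exacts [h, one_pos]

/-- the one-spin law with message `log (rho q)` -/
def tq (q : ℚ) (s : ℕ) : ℚ := (if s = 1 then rho q else (rho q)⁻¹) / (rho q + (rho q)⁻¹)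

theorem tq_bounds (q : ℚ) (s : ℕ) : 0 ≤ tq q s ∧ tq q s ≤ 1 := by
  have h := rho_pos q
  have h' := inv_pos.2 h
  unfold tq
  rw [div_le_one (by positivity)]
  split_ifs
  · exact ⟨by positivity, by linarith⟩
  · exact ⟨by positivity, by linarith⟩

theorem tilt_log (q : ℚ) (s : ℕ) : tilt (Real.log (rho q)) (decide (s = 1)) = tq q s := by
  have h : (0 : ℝ) < rho q := by exact_mod_cast rho_pos q
  unfold tilt tq spinVal
  rw [Real.cosh_log h]
  by_cases hs : s = 1
  · simp only [hs, decide_true, if_true, mul_one, Real.exp_log h]; push_cast; congr 1; ring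
  · simp only [hs, decide_false, if_false, Bool.false_eq_true, mul_neg, mul_one, Real.exp_neg,
      Real.exp_log h]
    push_cast; congr 1; ring

/-- the table entry of the label `i` along the path `p` -/
def ent (tab : List ℚ) (n : ℕ) (p : List ℕ) (i : ℕ) : ℚ :=
  tab.getD (Encodable.encode (p.map fun y => y / n ^ i % n)) 0

/-- the edge term -/
def edgeq (η : ℚ) (tab : List ℚ) (n c : ℕ) (p : List ℕ) : ℚ :=
  1 - (1 - η) * ∏ i ∈ range 3, tq (ent tab n p i) (c / 2 ^ i % 2)

/-- the site term -/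
def siteq (η : ℚ) (tab : List ℚ) (n k c : ℕ) (p : List ℕ) : ℚ :=
  (∑ e ∈ range 2, ∏ j ∈ range k, (1 - (1 - η) * if c / 2 ^ (2 + 3 * j) % 2 = e then
    ∏ i ∈ range 2, tq (ent tab n p (i + 2 * j)) (c / 2 ^ (i + 3 * j) % 2) else 0)) / 2

theorem one_sub_bounds {η x : ℚ} (h1 : η ≤ 1) (hx : 0 ≤ x ∧ x ≤ 1) :
    η ≤ 1 - (1 - η) * x ∧ 1 - (1 - η) * x ≤ 1 := by
  constructor <;> nlinarith [hx.1, hx.2]

theorem prod_tq_bounds (m : ℕ) (f : ℕ → ℚ) (g : ℕ → ℕ) :
    0 ≤ ∏ i ∈ range m, tq (f i) (g i) ∧ ∏ i ∈ range m, tq (f i) (g i) ≤ 1 :=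
  ⟨prod_nonneg fun _ _ => (tq_bounds _ _).1,
    prod_le_one (fun _ _ => (tq_bounds _ _).1) fun _ _ => (tq_bounds _ _).2⟩

theorem edgeq_bounds {η : ℚ} (h1 : η ≤ 1) (tab : List ℚ) (n c : ℕ) (p : List ℕ) :
    η ≤ edgeq η tab n c p ∧ edgeq η tab n c p ≤ 1 :=
  one_sub_bounds h1 (prod_tq_bounds _ _ _)

theorem siteq_bounds {η : ℚ} (h0 : 0 < η) (h1 : η ≤ 1) (tab : List ℚ) (n k c : ℕ) (p : List ℕ) :
    η ^ k ≤ siteq η tab n k c p ∧ siteq η tab n k c p ≤ 1 := by
  have h : ∀ e j, η ≤ (1 - (1 - η) * if c / 2 ^ (2 + 3 * j) % 2 = e then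
      ∏ i ∈ range 2, tq (ent tab n p (i + 2 * j)) (c / 2 ^ (i + 3 * j) % 2) else 0) ∧
      (1 - (1 - η) * if c / 2 ^ (2 + 3 * j) % 2 = e then
      ∏ i ∈ range 2, tq (ent tab n p (i + 2 * j)) (c / 2 ^ (i + 3 * j) % 2) else 0) ≤ 1 := by
    intro e j
    refine one_sub_bounds h1 ?_
    split_ifs
    · exact prod_tq_bounds _ _ _
    · exact ⟨le_rfl, zero_le_one⟩
  have h2 := fun e => prod_le_prod (s := range k) (fun _ _ => h0.le) fun j _ => (h e j).1
  have h3 := fun e => prod_le_one (s := range k) (fun j _ => h0.le.trans (h e j).1)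
    fun j _ => (h e j).2
  simp only [prod_const, card_range] at h2
  unfold siteq
  rw [sum_range_succ, sum_range_one]
  constructor
  · linarith [h2 0, h2 1]
  · linarith [h3 0, h3 1]

theorem exp_neg_log (b : ℕ) : Real.exp (-Real.log (b + 1)) = ((1 / (b + 1) : ℚ) : ℝ) := by
  rw [Real.exp_neg, Real.exp_log (by positivity)]; simp

theorem edge_eq (b : ℕ) (tab : List ℚ) (n c : ℕ) (p : List ℕ) :
    edgeTerm (satInter (Real.log (b + 1)) fun i => decide (c / 2 ^ (i : ℕ) % 2 = 1))
      (fun i => Real.log (rho (ent tab n p i))) = edgeq (1 / (b + 1)) tab n c p := by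
  unfold edgeTerm edgeq
  rw [mix_eq _ _ (Real.log (b + 1)) (fun i => decide (c / 2 ^ (i : ℕ) % 2 = 1)) True
    (fun t => by simp [satInter]), exp_neg_log, if_pos trivial]
  simp only [tilt_log]
  rw [Fin.prod_univ_eq_prod_range (fun i => (tq (ent tab n p i) (c / 2 ^ i % 2) : ℝ))]
  push_cast
  rfl

theorem site_eq (b : ℕ) (tab : List ℚ) (n k c : ℕ) (p : List ℕ) :
    siteTerm (p := 3) 0 (fun j : Fin k => satInter (Real.log (b + 1))
      fun i => decide (c / 2 ^ ((i : ℕ) + 3 * j) % 2 = 1))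
      (fun j i => Real.log (rho (ent tab n p (i + 2 * j)))) = siteq (1 / (b + 1)) tab n k c p := by
  have h0 : (0 : ℚ) < 1 / (b + 1) := by positivity
  have h1 : (1 / (b + 1) : ℚ) ≤ 1 := by
    rw [div_le_one (by positivity)]; linarith [Nat.cast_nonneg (α := ℚ) b]
  have key : ∀ (j : ℕ) (e : ℕ), e < 2 → Real.exp (siteMessage (p := 3) (satInter (Real.log (b + 1))
      fun i => decide (c / 2 ^ ((i : ℕ) + 3 * j) % 2 = 1))
      (fun i => Real.log (rho (ent tab n p (i + 2 * j)))) (decide (e = 1))) =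
      ((1 - (1 - 1 / (b + 1)) * if c / 2 ^ (2 + 3 * j) % 2 = e then
        ∏ i ∈ range 2, tq (ent tab n p (i + 2 * j)) (c / 2 ^ (i + 3 * j) % 2) else 0 : ℚ) : ℝ) := by
    intro j e he
    have h2 : 0 < (1 - (1 - 1 / (b + 1)) * if c / 2 ^ (2 + 3 * j) % 2 = e then
        ∏ i ∈ range 2, tq (ent tab n p (i + 2 * j)) (c / 2 ^ (i + 3 * j) % 2) else 0 : ℚ) := by
      refine h0.trans_le (one_sub_bounds h1 ?_).1
      split_ifs
      · exact prod_tq_bounds _ _ _
      · exact ⟨le_rfl, zero_le_one⟩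
    rw [← Real.exp_log (Rat.cast_pos.2 h2)]
    unfold siteMessage
    rw [mix_eq _ _ (Real.log (b + 1)) (fun i => decide (c / 2 ^ ((i : ℕ) + 3 * j) % 2 = 1))
      (c / 2 ^ (2 + 3 * j) % 2 = e) fun t => ?_, exp_neg_log]
    · simp only [tilt_log]
      rw [Fin.prod_univ_eq_prod_range
        (fun i => (tq (ent tab n p (i + 2 * j)) (c / 2 ^ (i + 3 * j) % 2) : ℝ))]
      congr 2
      split_ifs <;> push_cast <;> rfl
    · unfold satInter
      congr 1
      have h3 : decide (e = 1) = decide (c / 2 ^ (2 + 3 * j) % 2 = 1) ↔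
          c / 2 ^ (2 + 3 * j) % 2 = e := by
        rw [decide_eq_decide]; omega
      simp only [funext_iff, Fin.forall_fin_succ, ← h3]
      simp [and_assoc]
  unfold siteTerm siteq
  simp only [zero_mul, zero_add, Real.exp_sum, Fintype.sum_bool]
  have k0 := fun j : Fin k => key j 0 two_pos
  have k1 := fun j : Fin k => key j 1 one_lt_two
  simp only [decide_true, zero_ne_one, decide_false] at k0 k1
  rw [sum_range_succ, sum_range_one, ← Fin.prod_univ_eq_prod_range, ← Fin.prod_univ_eq_prod_range]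
  simp only [k0, k1, Rat.cast_div, Rat.cast_add, Rat.cast_prod, Rat.cast_ofNat]
  ring

/-- the site contribution with `k` clauses -/
noncomputable def SR (b a r n : ℕ) (tab : List ℚ) (k : ℕ) : ℝ :=
  (∑ c ∈ range (2 ^ (k * 3)),
    LTR (a + r + 1) a r (n ^ (k * 2)) fun p => siteq (1 / (b + 1)) tab n k c p) / 8 ^ k

/-- the edge contribution -/
noncomputable def ER (b a r n : ℕ) (tab : List ℚ) : ℝ :=
  (∑ c ∈ range (2 ^ 3), LTR (a + r + 1) a r (n ^ 3) fun p => edgeq (1 / (b + 1)) tab n c p) / 8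

/-- the trial map of a table -/
noncomputable def XT (r n : ℕ) [NeZero n] (tab : List ℚ) (u : Fin (r + 1) → unitInterval) : ℝ :=
  Real.log (rho (tab.getD (Encodable.encode (List.ofFn fun j => (grid n (u j) : ℕ))) 0))

theorem measurable_XT (r n : ℕ) [NeZero n] (tab : List ℚ) : Measurable (XT r n tab) :=
  Approx.measurable_gridFun n fun y : Fin (r + 1) → Fin n =>
    Real.log (rho (tab.getD (Encodable.encode (List.ofFn fun j => (y j : ℕ))) 0))

theorem trial_eq (α : ℝ) (b a r n : ℕ) [NeZero n] (tab : List ℚ) :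
    satTrial α (Real.log (b + 1)) r (fun d => ((a + d + 1 : ℕ) : ℝ) / (a + r + 1 : ℕ)) (XT r n tab) =
      Real.log 2 + ∑' k, poissonWeight (α * 3) k * SR b a r n tab k - α * 2 * ER b a r n tab := by
  unfold satTrial trialFunctional
  congr 2
  · refine tsum_congr fun k => ?_
    congr 1
    rw [integral_pi_satLaw, sum_signs, SR, div_eq_inv_mul]
    refine congrArg _ (sum_congr rfl fun c _ => ?_)
    rw [integral_dirac]
    refine (link (Lab := Fin k × Fin (3 - 1)) finProdFinEquiv n rfl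
      (fun l => Real.log (rho (tab.getD (Encodable.encode l) 0)))
      (fun x => siteTerm (p := 3) 0 (fun j : Fin k => satInter (Real.log (b + 1))
        fun i => decide (c / 2 ^ ((i : ℕ) + 3 * j) % 2 = 1)) fun j i => x (j, i))
      fun x => (Real.exp_pos _).trans_le (Approx.site_bounds _ _ _).1).trans ?_
    congr 1
    funext p
    exact site_eq b tab n k c p
  · norm_num
  · rw [integral_satLaw, sum_bits (Equiv.refl _), ER, div_eq_inv_mul]
    refine congrArg _ (sum_congr rfl fun c _ => ?_)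
    refine (link (Lab := Fin 3) (Equiv.refl _) n rfl
      (fun l => Real.log (rho (tab.getD (Encodable.encode l) 0)))
      (edgeTerm (satInter (Real.log (b + 1)) fun i => decide (c / 2 ^ (i : ℕ) % 2 = 1)))
      fun x => (Real.exp_pos _).trans_le (Approx.edge_bounds _ _).1).trans ?_
    congr 1
    funext p
    exact edge_eq b tab n c p

end Crest.Agent.R153.Num
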